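import Crest.Agent.X262.Bnd.Defs
import Crest.Agent.X262.Geo.Dv
import Crest.Agent.X262.Rul.NoPG
import Crest.Agent.X262.Rul.Br
import Crest.Agent.X262.Sark27.Term
import Crest.Agent.X277.N8.Dvr
import Crest.Agent.X277.Unf.Main

/-!
# Row 262, BND (helper95): surfaces with `p_g > 0`

* `pg2_iff` : `Bnd.PG2 F ↔ Rul.PG ℂ F 2`; `PG.up` : finite extensions;
* `pgStmt`, `rulStmt`, `noPGStmt`.
-/

set_option autoImplicit false
set_option linter.unusedSectionVars false
set_option linter.style.haveILetI false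

open scoped KaehlerDifferential

noncomputable section

namespace Crest.Agent.X262.End95

open Crest.Agent.X277 Crest.Agent.X277.BD Crest.Agent.X277.Lef Crest.Agent.X277.Pst
open Crest.Agent.X277.BD.Br (oP kP)
open Crest.Agent.X262.Bnd Crest.Agent.X262.Rul
open Module

section gen

variable {k F F' : Type} [Field k] [CharZero k] [Field F] [Field F'] [Algebra k F] [Algebra k F']
  {n : ℕ}

theorem exists_jac_up (b : Basis (Fin n) F Ω[F⁄k]) (b' : Basis (Fin n) F' Ω[F'⁄k])
    (α : F →ₐ[k] F') : ∃ c : F', c ≠ 0 ∧ ∀ y, jac b' (fun i => α (y i)) = c * α (jac b y) := by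
  obtain ⟨c, hc⟩ := BRep.exists_jf' b b' α
  refine ⟨c, fun h0 => ?_, hc⟩
  obtain ⟨ι, x, hx⟩ := exists_isTranscendenceBasis' k F
  have h1 := hx.cardinalMk_eq_trdeg
  rw [N8.trdeg_of_basis b, ← Cardinal.mk_fin, Cardinal.eq] at h1
  obtain ⟨e⟩ := h1
  obtain ⟨Z, hZ⟩ := Jet.exists_fr_of_tb
    (((hx.1.comp _ e.symm.injective).map' α.injective).isTranscendenceBasis_of_trdeg_le_of_finite
      (by rw [N8.trdeg_of_basis b', Cardinal.mk_fin]))
  have h2 := N8.jac_frame_ne b' Z
  rw [hZ] at h2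
  exact h2 ((hc _).trans (by rw [h0, zero_mul]))

theorem PG.up (h : PG k F n) (α : F →ₐ[k] F') (b' : Basis (Fin n) F' Ω[F'⁄k]) : PG k F' n := by
  obtain ⟨b, g, h1, h2⟩ := h
  obtain ⟨c, h0, hc⟩ := exists_jac_up b b' α
  refine ⟨b', c * α g, mul_ne_zero h0 ((map_ne_zero α).2 h1), fun W => ?_⟩
  let V : RZ k F := ⟨W.1.comap (α : F →+* F'), fun c => by
    rw [ValuationSubring.mem_comap]
    exact (α.commutes c).symm ▸ W.2 c⟩
  obtain ⟨z, hz, hv⟩ := h2 V
  have hj : jac b z ≠ 0 := fun e => h1 (by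
    rw [e, map_zero, le_zero_iff] at hv
    simpa using hv)
  refine ⟨fun l => α (z l), hz, ?_⟩
  rw [hc, map_mul, map_mul]
  refine mul_le_mul_right ((RZ.le_iff ((map_ne_zero α).2 hj)).2 ?_) _
  rw [← map_div₀]
  exact (RZ.le_iff (V := V) hj).1 hv

theorem nonempty_bs [Algebra.EssFiniteType k F] (h : dim k F = n) :
    Nonempty (Basis (Fin n) F Ω[F⁄k]) := ⟨finBasisOfFinrankEq F _ h⟩

theorem dim_of_bs (b : Basis (Fin n) F Ω[F⁄k]) : dim k F = n :=
  (finrank_eq_card_basis b).trans (Fintype.card_fin n)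

theorem hom_mem_sub {L M : Type} [Field L] [Field M] [Algebra k L] [Algebra k M] [Algebra L M]
    [IsScalarTower k L M] [Algebra.EssFiniteType k L] (h : PG k F n) {t : M}
    (ht : Transcendental L t) (φ : F →ₐ[k] M) (hφ : ∀ x, φ x ∈ IntermediateField.adjoin L {t})
    (a : F) : φ a ∈ (algebraMap L M).range := by
  have h3 : IsRat L (IntermediateField.AdjoinSimple.gen L t) := by
    refine ⟨fun e => ht ((isAlgebraic_algebraMap_iff
      (algebraMap (IntermediateField.adjoin L {t}) M).injective).2 e), ?_⟩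
    refine IntermediateField.lift_injective _ ?_
    rw [IntermediateField.lift_adjoin_simple, IntermediateField.lift_top]
    rfl
  let ψ : F →ₐ[k] IntermediateField.adjoin L {t} :=
    { (φ : F →+* M).codRestrict (IntermediateField.adjoin L {t}) hφ with
      commutes' := fun c => Subtype.ext (φ.commutes c) }
  obtain ⟨c, hc⟩ := hom_mem h h3 ψ a
  exact ⟨c, congrArg Subtype.val hc⟩

/-- `hom_mem` for arbitrary constants -/
theorem hom_mem' {L : Type} [Field L] [Algebra k L] [Algebra.EssFiniteType k F] (h : PG k F n)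
    (φ : F →ₐ[k] RatFunc L) (a : F) : φ a ∈ (algebraMap L (RatFunc L)).range := by
  classical
  obtain ⟨s, hs⟩ := IntermediateField.fg_top (F := k) (E := F)
  let C : Finset L := s.biUnion fun x => (φ x).num.coeffs ∪ (φ x).denom.coeffs
  let L0 : IntermediateField k L := IntermediateField.adjoin k (C : Set L)
  haveI : Algebra.EssFiniteType k L0 :=
    (IntermediateField.essFiniteType_iff).2 (IntermediateField.fg_adjoin_finset C)
  let M0 : IntermediateField L0 (RatFunc L) := IntermediateField.adjoin L0 {RatFunc.X}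
  have h1 : ∀ p : Polynomial L, (∀ c ∈ p.coeffs, c ∈ C) → algebraMap _ (RatFunc L) p ∈ M0 :=
    fun p hp => by
    rw [← RatFunc.aeval_X_left_eq_algebraMap, Polynomial.aeval_def, Polynomial.eval₂_eq_sum]
    refine sum_mem fun i hi => mul_mem (M0.algebraMap_mem ⟨_, IntermediateField.subset_adjoin _ _
      (hp _ (Polynomial.coeff_mem_coeffs (Polynomial.mem_support_iff.1 hi)))⟩)
      (pow_mem (IntermediateField.mem_adjoin_simple_self _ _) _)
  have h2 : ∀ x, φ x ∈ M0.restrictScalars k := fun x => by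
    have : IntermediateField.adjoin k (s : Set F) ≤ (M0.restrictScalars k).comap φ := by
      refine IntermediateField.adjoin_le_iff.2 fun y hy => ?_
      show φ y ∈ M0
      rw [← (φ y).num_div_denom]
      exact div_mem (h1 _ fun c hc => Finset.mem_biUnion.2 ⟨y, hy, Finset.mem_union_left _ hc⟩)
        (h1 _ fun c hc => Finset.mem_biUnion.2 ⟨y, hy, Finset.mem_union_right _ hc⟩)
    exact this (hs ▸ IntermediateField.mem_top)
  obtain ⟨c, hc⟩ := hom_mem_sub h (fun e => (isRat_X (L := L)).tr (e.tower_top L)) φ h2 a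
  exact ⟨c, hc⟩

end gen

variable {F F' : Type} [Field F] [Algebra ℂ F] [Field F'] [Algebra ℂ F'] {n : ℕ}

theorem mem_of_regTop (P : PModel ℂ F) {b : Basis (Fin n) F Ω[F⁄ℂ]} {g : F} (h : RegTop b g) :
    g ∈ (kP P b).Sec := by
  haveI := Geo.eft P
  refine (Sark27.car_of_on (Br.kP_mem b)).mem_Sec (Sark27.isMod_oP P) fun V hV => ?_
  obtain ⟨z, h1, h2⟩ := h V
  exact h2.trans (Sark27.jac_le_kP b hV h1)

theorem eff_of_pg (h : PG ℂ F n) (P : PModel ℂ F) (b : Basis (Fin n) F Ω[F⁄ℂ]) : Eff (kP P b) := by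
  obtain ⟨g, h1, h2⟩ := h.exists b
  exact ⟨g, mem_of_regTop P h2, h1⟩

theorem PG2.pg (h : PG2 F) : PG ℂ F 2 := by
  obtain ⟨P, c, h⟩ := h
  exact pg_of_eff h

theorem PG2.eft (h : PG2 F) : Algebra.EssFiniteType ℂ F := Geo.eft h.choose

theorem PG2.dim (h : PG2 F) : dim ℂ F = 2 := dim_of_bs h.choose_spec.choose

theorem pg2_of_pg [Algebra.EssFiniteType ℂ F] (h : PG ℂ F 2) : PG2 F := by
  obtain ⟨P⟩ := Unf.nonempty_pmodel (F := F)
  exact ⟨P, h.choose, eff_of_pg h P _⟩


theorem pg2_k3 [Algebra.EssFiniteType ℂ F] {d : ℕ} (X : Top.K3 F d) : PG2 F :=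
  pg2_of_pg (pg_of_lin X.can)

theorem PG2.up [Algebra.EssFiniteType ℂ F'] (h : PG2 F) (α : F →ₐ[ℂ] F') (hd : BD.dim ℂ F' = 2) :
    PG2 F' := (nonempty_bs hd).elim fun b' => pg2_of_pg (PG.up (PG2.pg h) α b')

theorem PG2.congr [Algebra.EssFiniteType ℂ F'] (h : PG2 F) (e : F ≃ₐ[ℂ] F') : PG2 F' :=
  pg2_of_pg ((PG2.pg h).congr e)

theorem pgStmt : PGStmt := fun _ _ _ _ _ _ _ α h hd => PG2.up h α hd

theorem rulStmt : RulStmt := fun _ _ _ _ _ _ φ h x =>
  haveI := PG2.eft h
  hom_mem' (PG2.pg h) φ x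

theorem noPGStmt : NoPGStmt := fun _ _ _ ⟨Y⟩ L h => (noPG Y (PG2.pg h)).false L.val

end Crest.Agent.X262.End95
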